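import Mathlib

/-!
# Chirps and cyclic convolutions on `ZMod N` (definitions)
-/

namespace Vale.Agent.Lib.P338

/-- The chirp `t ↦ ζ ^ (c * t ^ 2 / 2)` on `ZMod N`, where the exponent `c * t * t * 2⁻¹`
is computed in `ZMod N` (for odd `N` the element `2` is invertible there). -/
def chirp {N : ℕ} {K : Type} [Field K] (ζ : K) (c : ZMod N) : ZMod N → K :=
  fun t => ζ ^ (c * t * t * 2⁻¹).val

/-- The cyclic convolution of two functions on `ZMod N`. -/
def cconv {N : ℕ} [NeZero N] {K : Type} [Field K] (f g : ZMod N → K) : ZMod N → K :=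
  fun x => ∑ y : ZMod N, f (x - y) * g y

end Vale.Agent.Lib.P338
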