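import Vale.Agent.Lib.P338.ChirpDefs

/-!
# Dilations of `ZMod N` by chirps, and the transposition of matrices

Transposing an `n1 × n2` matrix stored in row-major order is the dilation by `n2` of the
index set `ZMod (n1 * n2 - 1)`, and a dilation is a composition of two cyclic convolutions
with chirps and two pointwise multiplications by chirps.
-/

namespace Vale.Agent.Lib.P338

theorem two_mul_inv {N : ℕ} (hN : Odd N) : (2 : ZMod N) * (2 : ZMod N)⁻¹ = 1 := by
  have h := ZMod.coe_mul_inv_eq_one (n := N) 2 (Nat.coprime_two_left.mpr hN)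
  exact_mod_cast h

/-- Dilation by `v` on `ZMod N` is a composition of two cyclic convolutions with chirps and
two pointwise multiplications by chirps, up to the factor `N`. -/
theorem dilation_chirp {N : ℕ} [NeZero N] {K : Type} [Field K] (hN : Odd N) (ζ : K)
    (hζ : IsPrimitiveRoot ζ N) (a : ZMod N → K) (v x : ZMod N) :
    (N : K) * a (v * x) =
      (chirp ζ (v * (1 - v)) * cconv (chirp ζ (-v)) (chirp ζ (v - 1) * cconv (chirp ζ 1) a) :
        ZMod N → K) x := by
  classical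
  have h1 : ζ ^ N = 1 := hζ.pow_eq_one
  set ψ : AddChar (ZMod N) K := AddChar.zmodChar N h1 with hψ
  have hprim : ψ.IsPrimitive := AddChar.zmodChar_primitive_of_primitive_root N hζ
  have hch : ∀ (c t : ZMod N), chirp ζ c t = ψ (c * t * t * 2⁻¹) := fun c t => rfl
  have h2 := two_mul_inv hN
  have hexp : ∀ y z : ZMod N,
      v * (1 - v) * x * x * 2⁻¹ + (-v * (x - y) * (x - y) * 2⁻¹ +
        ((v - 1) * y * y * 2⁻¹ + 1 * (y - z) * (y - z) * 2⁻¹)) =
      y * (v * x - z) + (z * z - v * v * x * x) * 2⁻¹ := by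
    intro y z
    have : y * (v * x - z) = y * (v * x - z) * (2 * 2⁻¹) := by rw [h2, mul_one]
    rw [this]
    ring
  have hterm : ∀ y z : ZMod N,
      chirp ζ (v * (1 - v)) x * (chirp ζ (-v) (x - y) * (chirp ζ (v - 1) y *
        (chirp ζ 1 (y - z) * a z))) =
      ψ ((z * z - v * v * x * x) * 2⁻¹) * a z * ψ (y * (v * x - z)) := by
    intro y z
    rw [hch, hch, hch, hch]
    have := hexp y z
    calc ψ (v * (1 - v) * x * x * 2⁻¹) * (ψ (-v * (x - y) * (x - y) * 2⁻¹) *
          (ψ ((v - 1) * y * y * 2⁻¹) * (ψ (1 * (y - z) * (y - z) * 2⁻¹) * a z)))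
        = ψ (v * (1 - v) * x * x * 2⁻¹ + (-v * (x - y) * (x - y) * 2⁻¹ +
            ((v - 1) * y * y * 2⁻¹ + 1 * (y - z) * (y - z) * 2⁻¹))) * a z := by
          rw [AddChar.map_add_eq_mul, AddChar.map_add_eq_mul, AddChar.map_add_eq_mul]
          ring
      _ = ψ ((z * z - v * v * x * x) * 2⁻¹) * a z * ψ (y * (v * x - z)) := by
          rw [this, AddChar.map_add_eq_mul]
          ring
  show (N : K) * a (v * x) = chirp ζ (v * (1 - v)) x *
    ∑ y : ZMod N, chirp ζ (-v) (x - y) * (chirp ζ (v - 1) y *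
      ∑ z : ZMod N, chirp ζ 1 (y - z) * a z)
  simp only [Finset.mul_sum]
  simp only [hterm]
  rw [Finset.sum_comm]
  simp only [← Finset.mul_sum]
  simp only [AddChar.sum_mulShift _ hprim]
  rw [Finset.sum_eq_single (v * x)]
  · have hz : (v * x * (v * x) - v * v * x * x) * (2 : ZMod N)⁻¹ = 0 := by ring
    rw [sub_self, if_pos rfl, ZMod.card, hz, AddChar.map_zero_eq_one]
    ring
  · intro z _ hz
    have hne : ¬ (v * x - z = 0) := fun h => hz (sub_eq_zero.mp h).symm
    rw [if_neg hne, Nat.cast_zero, mul_zero]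
  · intro h
    exact absurd (Finset.mem_univ _) h

/-- Transposition as a dilation: in `ZMod N` with `N + 1 = n1 * n2`, multiplying the
row-major index `j * n1 + i` of the transposed matrix by `n2` gives the row-major index
`i * n2 + j` of the matrix. -/
theorem transpose_index {N n1 n2 : ℕ} (h : n1 * n2 = N + 1) (i j : ℕ) :
    (n2 : ZMod N) * ((j * n1 + i : ℕ) : ZMod N) = ((i * n2 + j : ℕ) : ZMod N) := by
  have h1 : ((n1 * n2 : ℕ) : ZMod N) = 1 := by
    rw [h, Nat.cast_add, ZMod.natCast_self, zero_add, Nat.cast_one]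
  push_cast at h1 ⊢
  calc (n2 : ZMod N) * ((j : ZMod N) * n1 + i) = j * ((n1 : ZMod N) * n2) + i * n2 := by ring
    _ = i * n2 + j := by rw [h1]; ring

/-- The row-major listing of the transpose of a matrix is obtained from the row-major
listing of the matrix by two cyclic convolutions with chirps and two pointwise
multiplications by chirps. -/
theorem transpose_chirp (n1 n2 m : ℕ) (K : Type) [Field K] (ζ : K)
    (hn : n1 * n2 = 2 * m + 2) (hζ : IsPrimitiveRoot ζ (2 * m + 1))
    (A : Matrix (Fin n1) (Fin n2) K) (a : ZMod (2 * m + 1) → K)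
    (ha : ∀ (i : Fin n1) (j : Fin n2), (i : ℕ) * n2 + (j : ℕ) < 2 * m + 1 →
      a (((i : ℕ) * n2 + (j : ℕ) : ℕ) : ZMod (2 * m + 1)) = A i j)
    (j : Fin n2) (i : Fin n1) (hji : (j : ℕ) * n1 + (i : ℕ) < 2 * m + 1) :
    ((2 * m + 1 : ℕ) : K) * A.transpose j i =
      (chirp ζ ((n2 : ZMod (2 * m + 1)) * (1 - (n2 : ZMod (2 * m + 1)))) *
        cconv (chirp ζ (-(n2 : ZMod (2 * m + 1))))
          (chirp ζ ((n2 : ZMod (2 * m + 1)) - 1) * cconv (chirp ζ 1) a) :
        ZMod (2 * m + 1) → K) (((j : ℕ) * n1 + (i : ℕ) : ℕ) : ZMod (2 * m + 1)) := by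
  have hodd : Odd (2 * m + 1) := ⟨m, rfl⟩
  rw [← dilation_chirp hodd ζ hζ a, transpose_index (by omega) (i : ℕ) (j : ℕ)]
  rw [Matrix.transpose_apply]
  congr 1
  refine (ha i j ?_).symm
  -- the index `i * n2 + j` is less than `2 * m + 1`
  have hi := i.isLt
  have hj := j.isLt
  by_contra hcon
  have h1 : (i : ℕ) * n2 + (j : ℕ) = 2 * m + 1 := by
    have : (i : ℕ) * n2 + (j : ℕ) < n1 * n2 := by
      calc (i : ℕ) * n2 + (j : ℕ) < (i : ℕ) * n2 + n2 := by omega
        _ = ((i : ℕ) + 1) * n2 := by ring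
        _ ≤ n1 * n2 := Nat.mul_le_mul_right _ (by omega)
    omega
  -- then `i = n1 - 1` and `j = n2 - 1`, so `j * n1 + i = 2 * m + 1`
  have h2 : (i : ℕ) + 1 = n1 := by
    by_contra hne
    have : (i : ℕ) + 2 ≤ n1 := by omega
    have : ((i : ℕ) + 2) * n2 ≤ n1 * n2 := Nat.mul_le_mul_right _ this
    nlinarith
  have h3 : (j : ℕ) + 1 = n2 := by
    have : ((i : ℕ) + 1) * n2 = n1 * n2 := by rw [h2]
    nlinarith
  have h4 : (j : ℕ) * n1 + (i : ℕ) = 2 * m + 1 := by
    have : ((j : ℕ) + 1) * n1 = n1 * n2 := by rw [h3, mul_comm]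
    nlinarith
  omega

end Vale.Agent.Lib.P338
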