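import Mathlib

/-!
# Packing sequences of residues into integers (definitions)
-/

namespace Vale.Agent.Lib.P338

/-- `pack s L f` is the natural number whose digits in base `2 ^ s` are the residues
`f 0, ..., f (L - 1)`, each taken in the range `0, ..., p - 1`. -/
def pack {p : ℕ} (s L : ℕ) (f : ℕ → ZMod p) : ℕ :=
  ∑ k ∈ Finset.range L, (f k).val * 2 ^ (s * k)

/-- One multiplication step on a sequence `a` of `N` residues modulo `p`: pack `a` into an
integer with digits of `s` bits, multiply this integer by the integer `G`, read the digit of
index `k + N - 1` of the product in base `2 ^ s`, reduce it modulo `p` and multiply it by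
the residue `u k`. -/
def mulStep {p : ℕ} (s N G : ℕ) (u : ℕ → ZMod p) (a : ℕ → ZMod p) : ℕ → ZMod p :=
  fun k => u k * ((pack s N a * G / 2 ^ (s * (k + N - 1)) % 2 ^ s : ℕ) : ZMod p)

end Vale.Agent.Lib.P338
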