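import Vale.Agent.Lib.P338.KronDefs
import Vale.Agent.Lib.P338.ChirpProof

/-!
# Transposition of matrices over `ZMod p` by two integer multiplications

The two cyclic convolutions in the chirp formula for the transposition are carried out by
Kronecker substitution: each of them is one multiplication of natural numbers.
-/

namespace Vale.Agent.Lib.P338

/-- Digit extraction: if all `c k` are less than `B`, then the digit of index `k` of
`∑ k' < L, c k' * B ^ k'` in base `B` is `c k`. -/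
theorem digit_sum (B : ℕ) : ∀ (k L : ℕ) (c : ℕ → ℕ), (∀ i, i < L → c i < B) → k < L →
    (∑ i ∈ Finset.range L, c i * B ^ i) / B ^ k % B = c k := by
  intro k
  induction k with
  | zero =>
    intro L c hc hk
    obtain ⟨L', rfl⟩ : ∃ L', L = L' + 1 := ⟨L - 1, by omega⟩
    rw [Finset.sum_range_succ', pow_zero, Nat.div_one, mul_one]
    have h : ∑ i ∈ Finset.range L', c (i + 1) * B ^ (i + 1) =
        B * ∑ i ∈ Finset.range L', c (i + 1) * B ^ i := by
      rw [Finset.mul_sum]
      apply Finset.sum_congr rfl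
      intro i _
      ring
    rw [h, Nat.mul_add_mod]
    exact Nat.mod_eq_of_lt (hc 0 hk)
  | succ k ih =>
    intro L c hc hk
    obtain ⟨L', rfl⟩ : ∃ L', L = L' + 1 := ⟨L - 1, by omega⟩
    have hB : 0 < B := lt_of_le_of_lt (Nat.zero_le _) (hc 0 (by omega))
    rw [Finset.sum_range_succ', pow_zero, mul_one]
    have h : ∑ i ∈ Finset.range L', c (i + 1) * B ^ (i + 1) =
        B * ∑ i ∈ Finset.range L', c (i + 1) * B ^ i := by
      rw [Finset.mul_sum]
      apply Finset.sum_congr rfl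
      intro i _
      ring
    rw [h, pow_succ', ← Nat.div_div_eq_div_mul, Nat.mul_add_div hB,
      Nat.div_eq_of_lt (hc 0 (by omega)), add_zero]
    exact ih L' (fun i => c (i + 1)) (fun i hi => hc (i + 1) (by omega)) (by omega)

/-- The product of two sums of digits is the sum of the convolution of the digits. -/
theorem sum_mul_sum_digits (B N M : ℕ) (F G : ℕ → ℕ) :
    (∑ i ∈ Finset.range N, F i * B ^ i) * (∑ j ∈ Finset.range M, G j * B ^ j) =
      ∑ k ∈ Finset.range (N + M - 1),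
        (∑ i ∈ Finset.range N, ∑ j ∈ Finset.range M, if i + j = k then F i * G j else 0) *
          B ^ k := by
  rw [Finset.sum_mul_sum]
  simp only [Finset.sum_mul]
  conv_rhs => rw [Finset.sum_comm]
  apply Finset.sum_congr rfl
  intro i hi
  conv_rhs => rw [Finset.sum_comm]
  apply Finset.sum_congr rfl
  intro j hj
  rw [Finset.mem_range] at hi hj
  simp only [ite_mul, zero_mul]
  rw [Finset.sum_ite_eq, if_pos (Finset.mem_range.mpr (by omega))]
  ring

theorem conv_coeff_le (N M k b : ℕ) (F G : ℕ → ℕ) (hF : ∀ i, F i < b) (hG : ∀ j, G j < b) :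
    (∑ i ∈ Finset.range N, ∑ j ∈ Finset.range M, if i + j = k then F i * G j else 0) ≤
      N * b ^ 2 := by
  have h1 : ∀ i ∈ Finset.range N,
      (∑ j ∈ Finset.range M, if i + j = k then F i * G j else 0) ≤ b ^ 2 := by
    intro i _
    have h2 : ∀ j ∈ Finset.range M, (if i + j = k then F i * G j else 0) ≤
        (if j = k - i then b ^ 2 else 0) := by
      intro j _
      by_cases h : i + j = k
      · rw [if_pos h, if_pos (by omega)]
        have := hF i
        have := hG j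
        nlinarith
      · rw [if_neg h]
        exact Nat.zero_le _
    refine (Finset.sum_le_sum h2).trans ?_
    rw [Finset.sum_ite_eq']
    split_ifs
    · exact le_refl _
    · exact Nat.zero_le _
  calc (∑ i ∈ Finset.range N, ∑ j ∈ Finset.range M, if i + j = k then F i * G j else 0)
      ≤ ∑ i ∈ Finset.range N, b ^ 2 := Finset.sum_le_sum h1
    _ = N * b ^ 2 := by rw [Finset.sum_const, Finset.card_range, smul_eq_mul]

theorem conv_coeff_eq (N M k : ℕ) (F G : ℕ → ℕ) (hk : ∀ i, i < N → i ≤ k ∧ k - i < M) :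
    (∑ i ∈ Finset.range N, ∑ j ∈ Finset.range M, if i + j = k then F i * G j else 0) =
      ∑ i ∈ Finset.range N, F i * G (k - i) := by
  apply Finset.sum_congr rfl
  intro i hi
  obtain ⟨h1, h2⟩ := hk i (Finset.mem_range.mp hi)
  rw [Finset.sum_eq_single (k - i)]
  · rw [if_pos (by omega)]
  · intro j _ hj
    rw [if_neg (by omega)]
  · intro h
    exact absurd (Finset.mem_range.mpr h2) h

/-- Kronecker substitution: the convolution of two sequences of residues is read off
from the product of the packed integers. -/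
theorem kronecker {p : ℕ} [NeZero p] (s N : ℕ) (hN : 1 ≤ N) (hs : N * p ^ 2 < 2 ^ s)
    (f g : ℕ → ZMod p) (x : ℕ) (hx : x < N) :
    ((pack s N f * pack s (2 * N - 1) g / 2 ^ (s * (x + N - 1)) % 2 ^ s : ℕ) : ZMod p) =
      ∑ z ∈ Finset.range N, f z * g (x + N - 1 - z) := by
  have hp : ∀ (L : ℕ) (h : ℕ → ZMod p), pack s L h =
      ∑ i ∈ Finset.range L, (h i).val * (2 ^ s) ^ i := by
    intro L h
    unfold pack
    apply Finset.sum_congr rfl
    intro i _
    rw [pow_mul]
  rw [hp, hp, sum_mul_sum_digits, pow_mul]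
  rw [digit_sum (2 ^ s) (x + N - 1) (N + (2 * N - 1) - 1)]
  · rw [conv_coeff_eq N (2 * N - 1) (x + N - 1) _ _ (fun i hi => by omega)]
    push_cast
    apply Finset.sum_congr rfl
    intro i _
    rw [ZMod.natCast_zmod_val, ZMod.natCast_zmod_val]
  · intro k _
    exact lt_of_le_of_lt (conv_coeff_le N (2 * N - 1) k p _ _
      (fun i => ZMod.val_lt _) (fun j => ZMod.val_lt _)) hs
  · omega


theorem pack_lt {p : ℕ} (s : ℕ) (f : ℕ → ZMod p) (hf : ∀ k, (f k).val < 2 ^ s) :
    ∀ L : ℕ, pack s L f < 2 ^ (s * L) := by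
  intro L
  induction L with
  | zero => simp [pack]
  | succ L ih =>
    have h1 : pack s (L + 1) f = pack s L f + (f L).val * 2 ^ (s * L) := by
      unfold pack
      rw [Finset.sum_range_succ]
    have h2 := hf L
    have h3 : 2 ^ (s * (L + 1)) = 2 ^ s * 2 ^ (s * L) := by
      rw [← pow_add]
      congr 1
      ring
    have h4 : ((f L).val + 1) * 2 ^ (s * L) ≤ 2 ^ s * 2 ^ (s * L) :=
      Nat.mul_le_mul_right _ h2
    rw [h1, h3]
    nlinarith

theorem sum_range_eq_sum_zmod {M : Type} [AddCommMonoid M] (k : ℕ) (F : ℕ → M) :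
    ∑ z ∈ Finset.range (k + 1), F z = ∑ z : ZMod (k + 1), F z.val :=
  (Fin.sum_univ_eq_sum_range F (k + 1)).symm

/-- One multiplication step with the packed chirp `t ↦ h (t + 1)` computes the cyclic
convolution with `h`, followed by the pointwise multiplication by `u`. -/
theorem mulStep_eq {p : ℕ} [Fact p.Prime] (s k : ℕ) (hs : (k + 1) * p ^ 2 < 2 ^ s)
    (h : ZMod (k + 1) → ZMod p) (u a : ℕ → ZMod p) (x : ℕ) (hx : x < k + 1) :
    mulStep s (k + 1) (pack s (2 * (k + 1) - 1) (fun t => h ((t + 1 : ℕ) : ZMod (k + 1)))) u a x =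
      u x * cconv h (fun z : ZMod (k + 1) => a z.val) (x : ZMod (k + 1)) := by
  unfold mulStep
  rw [kronecker s (k + 1) (by omega) hs a _ x hx]
  congr 1
  unfold cconv
  rw [sum_range_eq_sum_zmod]
  apply Finset.sum_congr rfl
  intro z _
  have hz : z.val < k + 1 := ZMod.val_lt z
  have hcast : ((x + (k + 1) - 1 - z.val + 1 : ℕ) : ZMod (k + 1)) = (x : ZMod (k + 1)) - z := by
    have e : x + (k + 1) - 1 - z.val + 1 = x + (k + 1) - z.val := by omega
    rw [e, Nat.cast_sub (by omega), Nat.cast_add, ZMod.natCast_self, add_zero,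
      ZMod.natCast_zmod_val]
  rw [hcast, mul_comm]

/-- The transposition of a matrix over `ZMod p` by two multiplications of natural numbers. -/
theorem transpose_two_products (n1 n2 m p s : ℕ) [Fact p.Prime] (ζ : ZMod p)
    (hn : n1 * n2 = 2 * m + 2) (hζ : IsPrimitiveRoot ζ (2 * m + 1))
    (hs : (2 * m + 1) * p ^ 2 < 2 ^ s) :
    ∃ (G1 G2 : ℕ) (u w : ℕ → ZMod p), G1 < 2 ^ (s * (4 * m + 1)) ∧ G2 < 2 ^ (s * (4 * m + 1)) ∧
      ∀ (A : Matrix (Fin n1) (Fin n2) (ZMod p)) (a : ℕ → ZMod p),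
        (∀ (i : Fin n1) (j : Fin n2), a ((i : ℕ) * n2 + (j : ℕ)) = A i j) →
        ∀ (j : Fin n2) (i : Fin n1), (j : ℕ) * n1 + (i : ℕ) < 2 * m + 1 →
          mulStep s (2 * m + 1) G2 w (mulStep s (2 * m + 1) G1 u a) ((j : ℕ) * n1 + (i : ℕ)) =
            A.transpose j i := by
  have hodd : Odd (2 * m + 1) := ⟨m, rfl⟩
  have hp2 : p ≤ p ^ 2 := Nat.le_self_pow (by norm_num) p
  have hp1 : p ^ 2 ≤ (2 * m + 1) * p ^ 2 := Nat.le_mul_of_pos_left _ (by omega)
  have hplt : ∀ r : ZMod p, r.val < 2 ^ s := fun r => by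
    have := ZMod.val_lt r
    omega
  have hNne : ((2 * m + 1 : ℕ) : ZMod p) ≠ 0 := (hζ.neZero').ne
  have h4 : 2 * (2 * m + 1) - 1 = 4 * m + 1 := by omega
  refine ⟨pack s (2 * (2 * m + 1) - 1)
      (fun t => chirp ζ (1 : ZMod (2 * m + 1)) ((t + 1 : ℕ) : ZMod (2 * m + 1))),
    pack s (2 * (2 * m + 1) - 1)
      (fun t => chirp ζ (-(n2 : ZMod (2 * m + 1))) ((t + 1 : ℕ) : ZMod (2 * m + 1))),
    fun k => chirp ζ ((n2 : ZMod (2 * m + 1)) - 1) (k : ZMod (2 * m + 1)),
    fun k => ((2 * m + 1 : ℕ) : ZMod p)⁻¹ *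
      chirp ζ ((n2 : ZMod (2 * m + 1)) * (1 - (n2 : ZMod (2 * m + 1)))) (k : ZMod (2 * m + 1)),
    ?_, ?_, ?_⟩
  · rw [h4]; exact pack_lt s _ (fun k => hplt _) _
  · rw [h4]; exact pack_lt s _ (fun k => hplt _) _
  intro A a ha j i hji
  rw [mulStep_eq s (2 * m) hs _ _ _ _ hji]
  have hfirst : (fun z : ZMod (2 * m + 1) =>
      mulStep s (2 * m + 1) (pack s (2 * (2 * m + 1) - 1)
        (fun t => chirp ζ (1 : ZMod (2 * m + 1)) ((t + 1 : ℕ) : ZMod (2 * m + 1))))
        (fun k => chirp ζ ((n2 : ZMod (2 * m + 1)) - 1) (k : ZMod (2 * m + 1))) a z.val) =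
      (chirp ζ ((n2 : ZMod (2 * m + 1)) - 1) *
        cconv (chirp ζ 1) (fun z : ZMod (2 * m + 1) => a z.val) : ZMod (2 * m + 1) → ZMod p) := by
    funext z
    rw [mulStep_eq s (2 * m) hs _ _ _ _ (ZMod.val_lt z), ZMod.natCast_zmod_val]
    rfl
  rw [hfirst, mul_assoc]
  have hdil := dilation_chirp hodd ζ hζ (fun z : ZMod (2 * m + 1) => a z.val)
    (n2 : ZMod (2 * m + 1)) (((j : ℕ) * n1 + (i : ℕ) : ℕ) : ZMod (2 * m + 1))
  rw [Pi.mul_apply] at hdil
  rw [← hdil, ← mul_assoc, inv_mul_cancel₀ hNne, one_mul,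
    transpose_index (by omega) (i : ℕ) (j : ℕ), Matrix.transpose_apply]
  have hlt : (i : ℕ) * n2 + (j : ℕ) < 2 * m + 1 := by
    have hi := i.isLt
    have hj := j.isLt
    by_contra hcon
    have h1 : (i : ℕ) * n2 + (j : ℕ) = 2 * m + 1 := by
      have : (i : ℕ) * n2 + (j : ℕ) < n1 * n2 := by
        calc (i : ℕ) * n2 + (j : ℕ) < (i : ℕ) * n2 + n2 := by omega
          _ = ((i : ℕ) + 1) * n2 := by ring
          _ ≤ n1 * n2 := Nat.mul_le_mul_right _ (by omega)
      omega
    have h2 : (i : ℕ) + 1 = n1 := by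
      by_contra hne
      have : (i : ℕ) + 2 ≤ n1 := by omega
      have : ((i : ℕ) + 2) * n2 ≤ n1 * n2 := Nat.mul_le_mul_right _ this
      nlinarith
    have h3 : (j : ℕ) + 1 = n2 := by
      have : ((i : ℕ) + 1) * n2 = n1 * n2 := by rw [h2]
      nlinarith
    have h5 : (j : ℕ) * n1 + (i : ℕ) = 2 * m + 1 := by
      have : ((j : ℕ) + 1) * n1 = n1 * n2 := by rw [h3, mul_comm]
      nlinarith
    omega
  show a ((((i : ℕ) * n2 + (j : ℕ) : ℕ) : ZMod (2 * m + 1))).val = A i j
  rw [ZMod.val_cast_of_lt hlt]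
  exact ha i j

end Vale.Agent.Lib.P338
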