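import Mathlib

/-!
# One-tape Turing machines and integer multiplication (definitions)

A deterministic Turing machine with a single one-way infinite tape, which holds the
input at the start and the output at the end.
-/

namespace Vale.Agent.Lib.P338

/-- The possible moves of the head in one step. -/
inductive Move where
  | left : Move
  | right : Move
  | stay : Move

/-- The effect of a move on the head position.  The cells of the tape are numbered
`0, 1, 2, ...` from the left end; a left move on cell `0` leaves the head there. -/
def Move.apply : Move → ℕ → ℕ
  | Move.left, i => i - 1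
  | Move.right, i => i + 1
  | Move.stay, i => i

/-- A deterministic Turing machine with one tape, state set `Q` and tape alphabet `Γ`.
`trans q a = some (q', b, m)` means: in state `q` reading `a`, write `b`, make the
move `m` and enter state `q'`; `trans q a = none` means that the machine halts. -/
structure Machine (Q Γ : Type) where
  start : Q
  blank : Γ
  zero : Γ
  one : Γ
  sep : Γ
  trans : Q → Γ → Option (Q × Γ × Move)

/-- A configuration: the state, the head position and the contents of the tape. -/
structure Cfg (Q Γ : Type) where
  state : Q
  head : ℕ
  tape : ℕ → Γ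

/-- One step of the machine; `none` if the machine has halted. -/
def Machine.step {Q Γ : Type} (M : Machine Q Γ) (c : Cfg Q Γ) : Option (Cfg Q Γ) :=
  (M.trans c.state (c.tape c.head)).map
    (fun r => ⟨r.1, r.2.2.apply c.head, Function.update c.tape c.head r.2.1⟩)

/-- `M.run t c` is the configuration after exactly `t` steps from `c`, or `none` if
the machine halts earlier. -/
def Machine.run {Q Γ : Type} (M : Machine Q Γ) : ℕ → Cfg Q Γ → Option (Cfg Q Γ)
  | 0, c => some c
  | t + 1, c => (M.step c).bind (M.run t)

/-- The tape symbol for a bit. -/
def Machine.bit {Q Γ : Type} (M : Machine Q Γ) (b : Bool) : Γ :=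
  if b = true then M.one else M.zero

/-- The value of a binary string of length `n`, leftmost bit most significant. -/
def val {n : ℕ} (x : Fin n → Bool) : ℕ :=
  ∑ i : Fin n, if x i = true then 2 ^ (n - 1 - (i : ℕ)) else 0

/-- The initial configuration on the input `x#y` with `x, y` of length `n`: the head is
on the leftmost cell, cells `0, ..., n - 1` hold `x`, cell `n` holds the separator, cells
`n + 1, ..., 2 n` hold `y`, and all other cells are blank. -/
def Machine.init {Q Γ : Type} (M : Machine Q Γ) {n : ℕ} (x y : Fin n → Bool) : Cfg Q Γ where
  state := M.start
  head := 0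
  tape := fun i =>
    if h : i < n then M.bit (x ⟨i, h⟩)
    else if i = n then M.sep
    else if h' : i - (n + 1) < n then M.bit (y ⟨i - (n + 1), h'⟩)
    else M.blank

/-- On the input `x#y` the machine halts after exactly `t` steps, and at that moment
cells `0, ..., 2 n - 1` of its tape hold the `2 n`-bit binary representation of
`val x * val y`. -/
def Machine.MultipliesIn {Q Γ : Type} (M : Machine Q Γ) {n : ℕ} (x y : Fin n → Bool)
    (t : ℕ) : Prop :=
  ∃ d : Cfg Q Γ, M.run t (M.init x y) = some d ∧ M.step d = none ∧
    ∃ z : Fin (2 * n) → Bool, val z = val x * val y ∧
      ∀ i : Fin (2 * n), d.tape i = M.bit (z i)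

/-- The machine multiplies: on every input `x#y` with `x, y` of the same length `n ≥ 1`
it halts with the product on its tape. -/
def Machine.Multiplies {Q Γ : Type} (M : Machine Q Γ) : Prop :=
  ∀ n : ℕ, 1 ≤ n → ∀ x y : Fin n → Bool, ∃ t : ℕ, M.MultipliesIn x y t

end Vale.Agent.Lib.P338
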