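import Vale.Agent.Lib.P338.OneTapeProof

/-!
# A quadratic lower bound for multiplication on one-tape Turing machines: the counting
-/

namespace Vale.Agent.Lib.P338

variable {Q Γ : Type}


/-- The string of length `n` whose last `h` bits are `z` and whose other bits are `0`. -/
def tailBits (n h : ℕ) (z : Fin h → Bool) : Fin n → Bool :=
  fun i => if hi : n ≤ (i : ℕ) + h then z ⟨(i : ℕ) + h - n, by omega⟩ else false

theorem bit_injective (M : Machine Q Γ) (h01 : M.zero ≠ M.one) {a b : Bool}
    (h : M.bit a = M.bit b) : a = b := by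
  unfold Machine.bit at h
  cases a <;> cases b <;> simp_all

/-- The initial tapes for different `z` agree to the left of every boundary
`p ≤ 2 n - h + 1`. -/
theorem init_leftEq (M : Machine Q Γ) (n h p : ℕ) (hp : p + h ≤ 2 * n + 1)
    (z z' : Fin h → Bool) :
    LeftEq p (M.init (topBit n) (tailBits n h z)) (M.init (topBit n) (tailBits n h z')) := by
  intro i hi
  unfold Machine.init
  simp only
  by_cases h1 : i < n
  · simp [h1]
  · by_cases h2 : i = n
    · simp [h2]
    · by_cases h3 : i - (n + 1) < n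
      · have h4 : ¬ (n ≤ i - (n + 1) + h) := by omega
        simp [h1, h2, h3, tailBits, h4]
      · simp [h1, h2, h3]

/-- The final tape on the input `10...0 # 0...0z`: the string `z` stands on the cells
`n - h + 1, ..., n`. -/
theorem final_tape (M : Machine Q Γ) (n h : ℕ) (hn : 1 ≤ n) (hh : h ≤ n) (z : Fin h → Bool)
    (d : Cfg Q Γ)
    (hd : ∃ z' : Fin (2 * n) → Bool, val z' = val (topBit n) * val (tailBits n h z) ∧
      ∀ i : Fin (2 * n), d.tape i = M.bit (z' i)) (j : Fin h) :
    d.tape (n - h + 1 + j) = M.bit (z j) := by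
  obtain ⟨z', hz', htape⟩ := hd
  rw [val_topBit n hn] at hz'
  have hj := j.isLt
  have hb := bit_of_shift (tailBits n h z) z' hz' (n - h + 1 + j) (by omega) (by omega)
  have ht := htape ⟨n - h + 1 + j, by omega⟩
  simp only at ht
  rw [ht, hb]
  congr 1
  unfold tailBits
  have h5 : n ≤ n - h + 1 + (j : ℕ) - 1 + h := by omega
  simp only [h5, dite_true]
  congr 1
  ext
  simp only
  omega

/-- Runs on different `z` have different crossing sequences at each boundary `p` with
`n + 1 ≤ p ≤ 2 n - h + 1`. -/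
theorem cross_injective (M : Machine Q Γ) (h01 : M.zero ≠ M.one) (n h p : ℕ) (hn : 1 ≤ n)
    (hh : h ≤ n) (hp1 : n + 1 ≤ p) (hp2 : p + h ≤ 2 * n + 1) (z z' : Fin h → Bool) (t t' : ℕ)
    (ht : M.MultipliesIn (topBit n) (tailBits n h z) t)
    (ht' : M.MultipliesIn (topBit n) (tailBits n h z') t')
    (hc : M.cross p t (M.init (topBit n) (tailBits n h z)) =
      M.cross p t' (M.init (topBit n) (tailBits n h z'))) : z = z' := by
  obtain ⟨d, hrun, hhalt, hout⟩ := ht
  obtain ⟨d', hrun', hhalt', hout'⟩ := ht'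
  have hle := splice M p t t' _ _ d d' hrun hhalt hrun' hhalt' hc
    (init_leftEq M n h p hp2 z z') (Or.inl ⟨by show 0 < p; omega, rfl, rfl⟩)
  funext j
  have h1 := final_tape M n h hn hh z d hout j
  have h2 := final_tape M n h hn hh z' d' hout' j
  have hj := j.isLt
  have h3 := hle (n - h + 1 + j) (by omega)
  rw [h1, h2] at h3
  exact bit_injective M h01 h3



theorem list_eq_of_getElem?_fin {α : Type} {L : ℕ} {l1 l2 : List α} (h1 : l1.length < L)
    (h2 : l2.length < L) (h : (fun i : Fin L => l1[(i : ℕ)]?) = (fun i : Fin L => l2[(i : ℕ)]?)) :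
    l1 = l2 := by
  apply List.ext_getElem?
  intro i
  by_cases hi : i < L
  · exact congrFun h ⟨i, hi⟩
  · rw [List.getElem?_eq_none (by omega), List.getElem?_eq_none (by omega)]

/-- A family of lists indexed injectively by `Fin h → Bool` has at most
`(card Q + 1) ^ L` members of length less than `L`. -/
theorem card_short_le [Fintype Q] (h L : ℕ) (cs : (Fin h → Bool) → List Q)
    (hinj : ∀ z z', cs z = cs z' → z = z') :
    (Finset.univ.filter (fun z : Fin h → Bool => (cs z).length < L)).card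
      ≤ (Fintype.card Q + 1) ^ L := by
  classical
  have hcard : Fintype.card (Fin L → Option Q) = (Fintype.card Q + 1) ^ L := by
    rw [Fintype.card_fun, Fintype.card_option, Fintype.card_fin]
  rw [← hcard, ← Finset.card_univ]
  apply Finset.card_le_card_of_injOn (fun z => fun i : Fin L => (cs z)[(i : ℕ)]?)
  · intro z _; exact Finset.mem_coe.mpr (Finset.mem_univ _)
  · intro z hz z' hz' hzz
    simp only [Finset.coe_filter, Finset.mem_univ, true_and, Set.mem_ofPred_eq] at hz hz'
    exact hinj z z' (list_eq_of_getElem?_fin hz hz' hzz)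

/-- If there are fewer short lists than members of the family, then some member is long
at all the indices `p` of a finite set at once. -/
theorem exists_all_long [Fintype Q] (h L : ℕ) (P : Finset ℕ)
    (cs : ℕ → (Fin h → Bool) → List Q)
    (hinj : ∀ p ∈ P, ∀ z z', cs p z = cs p z' → z = z')
    (hlt : P.card * (Fintype.card Q + 1) ^ L < 2 ^ h) :
    ∃ z : Fin h → Bool, ∀ p ∈ P, L ≤ (cs p z).length := by
  classical
  by_contra hcon
  push Not at hcon
  have hsub : (Finset.univ : Finset (Fin h → Bool)) ⊆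
      P.biUnion (fun p => Finset.univ.filter (fun z : Fin h → Bool => (cs p z).length < L)) := by
    intro z _
    obtain ⟨p, hp, hz⟩ := hcon z
    exact Finset.mem_biUnion.mpr ⟨p, hp, Finset.mem_filter.mpr ⟨Finset.mem_univ _, hz⟩⟩
  have h1 := Finset.card_le_card hsub
  have h2 : (P.biUnion (fun p => Finset.univ.filter
      (fun z : Fin h → Bool => (cs p z).length < L))).card ≤
      ∑ p ∈ P, (Fintype.card Q + 1) ^ L :=
    Finset.card_biUnion_le.trans
      (Finset.sum_le_sum (fun p hp => card_short_le h L (cs p) (hinj p hp)))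
  rw [Finset.sum_const, smul_eq_mul] at h2
  have h3 : (Finset.univ : Finset (Fin h → Bool)).card = 2 ^ h := by
    rw [Finset.card_univ, Fintype.card_fun, Fintype.card_bool, Fintype.card_fin]
  omega

theorem four_mul_lt_two_pow : ∀ k : ℕ, 5 ≤ k → 4 * k + 4 < 2 ^ k := by
  intro k hk
  induction k, hk using Nat.le_induction with
  | base => norm_num
  | succ k hk ih => rw [pow_succ]; omega

theorem succ_lt_two_pow_div_four (n : ℕ) (hn : 20 ≤ n) : n + 1 < 2 ^ (n / 4) := by
  have h1 := four_mul_lt_two_pow (n / 4) (by omega)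
  omega

/-- The arithmetic of the counting argument. -/
theorem counting_arith (K n : ℕ) (_hK : 1 ≤ K) (hn : 20 ≤ n) :
    (n - n / 2 + 1) * K ^ (n / (8 * K)) < 2 ^ (n / 2) := by
  have h1 : K ^ (n / (8 * K)) ≤ 2 ^ (n / 8) := by
    calc K ^ (n / (8 * K)) ≤ (2 ^ K) ^ (n / (8 * K)) :=
          Nat.pow_le_pow_left (Nat.lt_two_pow_self).le _
      _ = 2 ^ (K * (n / (8 * K))) := by rw [← pow_mul]
      _ ≤ 2 ^ (n / 8) := by
          apply Nat.pow_le_pow_right (by norm_num)
          have h2 : 8 * K * (n / (8 * K)) ≤ n := Nat.mul_div_le n (8 * K)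
          have h3 : 8 * (K * (n / (8 * K))) ≤ n := by rw [← mul_assoc]; exact h2
          omega
  have h4 : n - n / 2 + 1 < 2 ^ (n / 4) := by
    have := succ_lt_two_pow_div_four n hn
    omega
  calc (n - n / 2 + 1) * K ^ (n / (8 * K)) ≤ (n - n / 2 + 1) * 2 ^ (n / 8) :=
        Nat.mul_le_mul_left _ h1
    _ < 2 ^ (n / 4) * 2 ^ (n / 8) := Nat.mul_lt_mul_of_pos_right h4 (by positivity)
    _ = 2 ^ (n / 4 + n / 8) := by rw [← pow_add]
    _ ≤ 2 ^ (n / 2) := Nat.pow_le_pow_right (by norm_num) (by omega)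

theorem final_arith (K n t : ℕ) (hK : 1 ≤ K) (hn : 16 * K ≤ n)
    (ht : (n - n / 2 + 1) * (n / (8 * K)) ≤ t) : n ^ 2 ≤ 32 * K * t := by
  have hpos : 0 < 8 * K := by omega
  have h1 : n < 8 * K * (n / (8 * K) + 1) := Nat.lt_mul_div_succ n hpos
  have h2 : 1 ≤ n / (8 * K) := (Nat.one_le_div_iff hpos).mpr (by omega)
  have h3 : n ≤ 16 * K * (n / (8 * K)) := by nlinarith
  have h4 : n ≤ 2 * (n - n / 2 + 1) := by omega
  calc n ^ 2 = n * n := by ring
    _ ≤ (2 * (n - n / 2 + 1)) * (16 * K * (n / (8 * K))) := Nat.mul_le_mul h4 h3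
    _ = 32 * K * ((n - n / 2 + 1) * (n / (8 * K))) := by ring
    _ ≤ 32 * K * t := Nat.mul_le_mul_left _ ht


/-- Every one-tape machine that multiplies needs at least `n ^ 2 / C` steps on some input
of each large length `n`, for a constant `C` that depends on the machine only. -/
theorem one_tape_quadratic (Q Γ : Type) [Finite Q] (M : Machine Q Γ) (h01 : M.zero ≠ M.one)
    (hM : M.Multiplies) :
    ∃ C : ℕ, 0 < C ∧ ∃ N : ℕ, ∀ n : ℕ, N ≤ n → ∃ x y : Fin n → Bool, ∃ t : ℕ,
      M.MultipliesIn x y t ∧ n ^ 2 ≤ C * t := by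
  classical
  have := Fintype.ofFinite Q
  refine ⟨32 * (Fintype.card Q + 1), by omega, 16 * (Fintype.card Q + 1) + 20, ?_⟩
  intro n hn
  have hn1 : 1 ≤ n := by omega
  have hex : ∀ z : Fin (n / 2) → Bool,
      ∃ t, M.MultipliesIn (topBit n) (tailBits n (n / 2) z) t := fun z => hM n hn1 _ _
  choose τ hτ using hex
  have hPcard : (Finset.Icc (n + 1) (2 * n - n / 2 + 1)).card = n - n / 2 + 1 := by
    rw [Nat.card_Icc]; omega
  have hinj : ∀ p ∈ Finset.Icc (n + 1) (2 * n - n / 2 + 1), ∀ z z' : Fin (n / 2) → Bool,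
      M.cross p (τ z) (M.init (topBit n) (tailBits n (n / 2) z)) =
        M.cross p (τ z') (M.init (topBit n) (tailBits n (n / 2) z')) → z = z' := by
    intro p hp z z' hc
    rw [Finset.mem_Icc] at hp
    exact cross_injective M h01 n (n / 2) p hn1 (by omega) hp.1 (by omega) z z' (τ z) (τ z')
      (hτ z) (hτ z') hc
  have hlt : (Finset.Icc (n + 1) (2 * n - n / 2 + 1)).card *
      (Fintype.card Q + 1) ^ (n / (8 * (Fintype.card Q + 1))) < 2 ^ (n / 2) := by
    rw [hPcard]
    exact counting_arith (Fintype.card Q + 1) n (by omega) (by omega)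
  obtain ⟨z, hz⟩ := exists_all_long (n / 2) (n / (8 * (Fintype.card Q + 1)))
    (Finset.Icc (n + 1) (2 * n - n / 2 + 1))
    (fun p z => M.cross p (τ z) (M.init (topBit n) (tailBits n (n / 2) z))) hinj hlt
  refine ⟨topBit n, tailBits n (n / 2) z, τ z, hτ z, ?_⟩
  apply final_arith (Fintype.card Q + 1) n (τ z) (by omega) (by omega)
  have hsum := sum_cross_le M (Finset.Icc (n + 1) (2 * n - n / 2 + 1)) (τ z)
    (M.init (topBit n) (tailBits n (n / 2) z))
  have hmul : (Finset.Icc (n + 1) (2 * n - n / 2 + 1)).card *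
      (n / (8 * (Fintype.card Q + 1))) ≤
      ∑ p ∈ Finset.Icc (n + 1) (2 * n - n / 2 + 1),
        (M.cross p (τ z) (M.init (topBit n) (tailBits n (n / 2) z))).length := by
    rw [← smul_eq_mul, ← Finset.sum_const]
    exact Finset.sum_le_sum hz
  rw [hPcard] at hmul
  exact hmul.trans hsum

end Vale.Agent.Lib.P338
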