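import Vale.Agent.Lib.P338.OneTape

/-!
# A quadratic lower bound for multiplication on one-tape Turing machines

The proof is the classical crossing-sequence argument.  On the inputs `10...0 # y` the
machine has to move `y` by `n` cells to the left.  For a boundary `p` between the two
positions, runs on different `y` that agree to the left of `p` must have different
crossing sequences at `p`; counting crossing sequences gives a `y` for which the
crossing sequences at about `n / 2` boundaries all have length of order `n`.
-/

namespace Vale.Agent.Lib.P338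

variable {Q Γ : Type}

/-- The list of the states in which the head crosses the boundary between the cells
`p - 1` and `p` during the first `t` steps from `c`. -/
def Machine.cross (M : Machine Q Γ) (p : ℕ) : ℕ → Cfg Q Γ → List Q
  | 0, _ => []
  | t + 1, c =>
    match M.step c with
    | none => []
    | some c' =>
      (if (c.head < p ∧ p ≤ c'.head) ∨ (c'.head < p ∧ p ≤ c.head) then [c'.state] else [])
        ++ M.cross p t c'

/-- The two configurations have the same tape contents on the cells `0, ..., p - 1`. -/
def LeftEq (p : ℕ) (c d : Cfg Q Γ) : Prop := ∀ i, i < p → c.tape i = d.tape i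

theorem LeftEq.refl (p : ℕ) (c : Cfg Q Γ) : LeftEq p c c := fun _ _ => rfl

theorem LeftEq.symm {p : ℕ} {c d : Cfg Q Γ} (h : LeftEq p c d) : LeftEq p d c :=
  fun i hi => (h i hi).symm

theorem LeftEq.trans {p : ℕ} {c d e : Cfg Q Γ} (h : LeftEq p c d) (h' : LeftEq p d e) :
    LeftEq p c e := fun i hi => (h i hi).trans (h' i hi)

theorem step_some {M : Machine Q Γ} {c c' : Cfg Q Γ} (h : M.step c = some c') :
    ∃ q a m, M.trans c.state (c.tape c.head) = some (q, a, m) ∧
      c' = ⟨q, m.apply c.head, Function.update c.tape c.head a⟩ := by
  unfold Machine.step at h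
  cases htr : M.trans c.state (c.tape c.head) with
  | none => rw [htr] at h; simp at h
  | some r =>
    rw [htr] at h
    simp only [Option.map_some, Option.some.injEq] at h
    exact ⟨r.1, r.2.1, r.2.2, rfl, h.symm⟩

theorem step_none {M : Machine Q Γ} {c : Cfg Q Γ} :
    M.step c = none ↔ M.trans c.state (c.tape c.head) = none := by
  unfold Machine.step
  simp

theorem apply_le (m : Move) (i : ℕ) : m.apply i ≤ i + 1 := by
  cases m
  · show i - 1 ≤ i + 1
    omega
  · show i + 1 ≤ i + 1
    omega
  · show i ≤ i + 1
    omega

theorem le_apply (m : Move) (i : ℕ) : i ≤ m.apply i + 1 := by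
  cases m
  · show i ≤ i - 1 + 1
    omega
  · show i ≤ i + 1 + 1
    omega
  · show i ≤ i + 1
    omega

theorem run_zero (M : Machine Q Γ) (c : Cfg Q Γ) : M.run 0 c = some c := rfl

theorem run_succ (M : Machine Q Γ) (t : ℕ) (c : Cfg Q Γ) :
    M.run (t + 1) c = (M.step c).bind (M.run t) := rfl

theorem run_halted {M : Machine Q Γ} {t : ℕ} {c d : Cfg Q Γ} (h : M.run t c = some d)
    (hc : M.step c = none) : t = 0 ∧ d = c := by
  cases t with
  | zero => simp [run_zero] at h; exact ⟨rfl, h.symm⟩
  | succ t => rw [run_succ, hc] at h; simp at h

theorem cross_succ_some (M : Machine Q Γ) (p t : ℕ) {c c' : Cfg Q Γ} (h : M.step c = some c') :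
    M.cross p (t + 1) c =
      (if (c.head < p ∧ p ≤ c'.head) ∨ (c'.head < p ∧ p ≤ c.head) then [c'.state] else [])
        ++ M.cross p t c' := by
  simp only [Machine.cross, h]

theorem cross_succ_none (M : Machine Q Γ) (p t : ℕ) {c : Cfg Q Γ} (h : M.step c = none) :
    M.cross p (t + 1) c = [] := by
  simp only [Machine.cross, h]

/-- While the head is to the right of the boundary `p`, the left part of the tape does not
change; the phase ends either with the end of the run or with a crossing to the left. -/
theorem right_phase (M : Machine Q Γ) (p : ℕ) : ∀ (t : ℕ) (c d : Cfg Q Γ),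
    M.run t c = some d → p ≤ c.head →
    (M.cross p t c = [] ∧ LeftEq p c d) ∨
    (∃ t' c', t' < t ∧ M.run t' c' = some d ∧ c'.head + 1 = p ∧ LeftEq p c c' ∧
      M.cross p t c = c'.state :: M.cross p t' c') := by
  intro t
  induction t with
  | zero =>
    intro c d h _
    left
    simp only [run_zero, Option.some.injEq] at h
    subst h
    exact ⟨rfl, LeftEq.refl p c⟩
  | succ t ih =>
    intro c d h hp
    rw [run_succ] at h
    cases hs : M.step c with
    | none => rw [hs] at h; simp at h
    | some c1 =>
      rw [hs] at h
      simp only [Option.bind_some] at h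
      obtain ⟨q, a, m, htr, hc1⟩ := step_some hs
      have hleft : LeftEq p c c1 := by
        intro i hi
        rw [hc1]
        simp only
        rw [Function.update_of_ne (by omega)]
      have hhead : c1.head = m.apply c.head := by rw [hc1]
      by_cases hlt : c1.head < p
      · right
        refine ⟨t, c1, Nat.lt_succ_self t, h, ?_, hleft, ?_⟩
        · have := le_apply m c.head
          omega
        · rw [cross_succ_some M p t hs]
          simp [hlt, hp]
      · have hge : p ≤ c1.head := by omega
        have hcr : M.cross p (t + 1) c = M.cross p t c1 := by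
          rw [cross_succ_some M p t hs]
          have : ¬ ((c.head < p ∧ p ≤ c1.head) ∨ (c1.head < p ∧ p ≤ c.head)) := by omega
          simp [this]
        rcases ih c1 d h hge with ⟨h1, h2⟩ | ⟨t', c', ht', hrun, hhd, hle, hcross⟩
        · left
          exact ⟨by rw [hcr, h1], hleft.trans h2⟩
        · right
          exact ⟨t', c', by omega, hrun, hhd, hleft.trans hle, by rw [hcr, hcross]⟩

/-- The splicing lemma for crossing sequences: two halting runs whose tapes agree at the
start to the left of the boundary `p`, and which have the same crossing sequence at `p`,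
end with tapes that agree to the left of `p`. -/
theorem splice (M : Machine Q Γ) (p : ℕ) : ∀ (t1 t2 : ℕ) (c1 c2 d1 d2 : Cfg Q Γ),
    M.run t1 c1 = some d1 → M.step d1 = none → M.run t2 c2 = some d2 → M.step d2 = none →
    M.cross p t1 c1 = M.cross p t2 c2 → LeftEq p c1 c2 →
    ((c1.head < p ∧ c1.head = c2.head ∧ c1.state = c2.state) ∨ (p ≤ c1.head ∧ p ≤ c2.head)) →
    LeftEq p d1 d2 := by
  intro t1
  induction t1 using Nat.strong_induction_on with
  | _ t1 ih =>
    intro t2 c1 c2 d1 d2 hr1 hd1 hr2 hd2 hcr hle hpos
    rcases hpos with ⟨hlt, hhead, hstate⟩ | ⟨hp1, hp2⟩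
    · -- both heads on the left, same state and position
      obtain ⟨s1, h1, tp1⟩ := c1
      obtain ⟨s2, h2, tp2⟩ := c2
      simp only at hlt hhead hstate
      subst hhead hstate
      have hsym : tp1 h1 = tp2 h1 := hle _ hlt
      cases hs1 : M.step ⟨s1, h1, tp1⟩ with
      | none =>
        have hs2 : M.step ⟨s1, h1, tp2⟩ = none := by
          rw [step_none] at hs1 ⊢
          simp only at hs1 ⊢
          rw [← hsym]; exact hs1
        obtain ⟨-, rfl⟩ := run_halted hr1 hs1
        obtain ⟨-, rfl⟩ := run_halted hr2 hs2
        exact hle
      | some c1' =>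
        obtain ⟨q, a, m, htr, hc1'⟩ := step_some hs1
        simp only at htr hc1'
        have hs2 : M.step ⟨s1, h1, tp2⟩ = some ⟨q, m.apply h1, Function.update tp2 h1 a⟩ := by
          unfold Machine.step
          simp only
          rw [← hsym, htr]
          rfl
        subst hc1'
        cases t1 with
        | zero =>
          simp only [run_zero, Option.some.injEq] at hr1
          subst hr1
          rw [hs1] at hd1
          simp at hd1
        | succ t1 =>
          cases t2 with
          | zero =>
            simp only [run_zero, Option.some.injEq] at hr2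
            subst hr2
            rw [hs2] at hd2
            simp at hd2
          | succ t2 =>
            rw [run_succ, hs1] at hr1
            rw [run_succ, hs2] at hr2
            simp only [Option.bind_some] at hr1 hr2
            rw [cross_succ_some M p t1 hs1, cross_succ_some M p t2 hs2] at hcr
            have hcr' := List.append_cancel_left hcr
            refine ih t1 (Nat.lt_succ_self t1) t2 _ _ d1 d2 hr1 hd1 hr2 hd2 hcr' ?_ ?_
            · intro i hi
              simp only
              by_cases hi' : i = h1
              · rw [hi', Function.update_self, Function.update_self]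
              · rw [Function.update_of_ne hi', Function.update_of_ne hi']
                exact hle i hi
            · simp only
              by_cases hlt' : m.apply h1 < p
              · left; exact ⟨hlt', trivial, trivial⟩
              · right; exact ⟨by omega, by omega⟩
    · -- both heads on the right
      rcases right_phase M p t1 c1 d1 hr1 hp1 with
        ⟨h1, h1'⟩ | ⟨t1', c1', ht1', hrun1, hhd1, hle1, hcross1⟩
      · rcases right_phase M p t2 c2 d2 hr2 hp2 with
          ⟨h2, h2'⟩ | ⟨t2', c2', ht2', hrun2, hhd2, hle2, hcross2⟩
        · exact h1'.symm.trans (hle.trans h2')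
        · rw [h1, hcross2] at hcr
          simp at hcr
      · rcases right_phase M p t2 c2 d2 hr2 hp2 with
          ⟨h2, h2'⟩ | ⟨t2', c2', ht2', hrun2, hhd2, hle2, hcross2⟩
        · rw [h2, hcross1] at hcr
          simp at hcr
        · rw [hcross1, hcross2] at hcr
          simp only [List.cons.injEq] at hcr
          refine ih t1' ht1' t2' c1' c2' d1 d2 hrun1 hd1 hrun2 hd2 hcr.2 ?_ ?_
          · exact hle1.symm.trans (hle.trans hle2)
          · left
            exact ⟨by omega, by omega, hcr.1⟩

/-- Each step crosses at most one boundary, so the crossing sequences at distinct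
boundaries have total length at most the number of steps. -/
theorem sum_cross_le (M : Machine Q Γ) (P : Finset ℕ) : ∀ (t : ℕ) (c : Cfg Q Γ),
    ∑ p ∈ P, (M.cross p t c).length ≤ t := by
  intro t
  induction t with
  | zero => intro c; simp [Machine.cross]
  | succ t ih =>
    intro c
    cases hs : M.step c with
    | none =>
      simp [cross_succ_none M _ t hs]
    | some c' =>
      obtain ⟨q, a, m, htr, hc'⟩ := step_some hs
      have hh : c'.head = m.apply c.head := by rw [hc']
      have h1 := apply_le m c.head
      have h2 := le_apply m c.head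
      have key : ∀ p ∈ P, (M.cross p (t + 1) c).length =
          (if (c.head < p ∧ p ≤ c'.head) ∨ (c'.head < p ∧ p ≤ c.head) then 1 else 0)
            + (M.cross p t c').length := by
        intro p _
        rw [cross_succ_some M p t hs, List.length_append]
        split_ifs <;> simp
      rw [Finset.sum_congr rfl key, Finset.sum_add_distrib]
      have hone : ∑ p ∈ P, (if (c.head < p ∧ p ≤ c'.head) ∨ (c'.head < p ∧ p ≤ c.head)
          then 1 else 0) ≤ 1 := by
        rw [← Finset.card_filter]
        rw [Finset.card_le_one]
        intro a ha b hb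
        simp only [Finset.mem_filter] at ha hb
        omega
      have := ih c'
      omega

/-! ### Binary representations -/

theorem val_succ {k : ℕ} (s : Fin (k + 1) → Bool) :
    val s = (if s 0 = true then 2 ^ k else 0) + val (fun i : Fin k => s i.succ) := by
  unfold val
  rw [Fin.sum_univ_succ]
  congr 1
  apply Finset.sum_congr rfl
  intro i _
  have : k + 1 - 1 - ((i.succ : Fin (k + 1)) : ℕ) = k - 1 - (i : ℕ) := by
    simp only [Fin.val_succ]; omega
  rw [this]

theorem val_lt : ∀ {k : ℕ} (s : Fin k → Bool), val s < 2 ^ k := by
  intro k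
  induction k with
  | zero => intro s; simp [val]
  | succ k ih =>
    intro s
    rw [val_succ]
    have := ih (fun i : Fin k => s i.succ)
    split_ifs <;> omega

theorem testBit_val : ∀ {k : ℕ} (s : Fin k → Bool) (w : ℕ) (hw : w < k),
    (val s).testBit w = s ⟨k - 1 - w, by omega⟩ := by
  intro k
  induction k with
  | zero => intro s w hw; omega
  | succ k ih =>
    intro s w hw
    rw [val_succ]
    have hlt := val_lt (fun i : Fin k => s i.succ)
    by_cases hwk : w = k
    · subst hwk
      have h0 : (⟨w + 1 - 1 - w, by omega⟩ : Fin (w + 1)) = 0 := by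
        ext; simp
      rw [h0]
      by_cases hs : s 0 = true
      · rw [if_pos hs, Nat.testBit_two_pow_add_eq, Nat.testBit_lt_two_pow hlt, hs]; rfl
      · rw [if_neg hs, Nat.zero_add, Nat.testBit_lt_two_pow hlt]
        simpa using hs
    · have hw' : w < k := by omega
      have hidx : (⟨k + 1 - 1 - w, by omega⟩ : Fin (k + 1)) = Fin.succ ⟨k - 1 - w, by omega⟩ := by
        ext; simp only [Fin.val_succ]; omega
      rw [hidx, ← ih (fun i : Fin k => s i.succ) w hw']
      by_cases hs : s 0 = true
      · rw [if_pos hs, Nat.testBit_two_pow_add_gt hw']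
      · rw [if_neg hs, Nat.zero_add]

/-- The string `1 0 ... 0` of length `n`. -/
def topBit (n : ℕ) : Fin n → Bool := fun i => decide ((i : ℕ) = 0)

theorem val_topBit (n : ℕ) (hn : 1 ≤ n) : val (topBit n) = 2 ^ (n - 1) := by
  unfold val topBit
  rw [Finset.sum_eq_single (⟨0, hn⟩ : Fin n)]
  · simp
  · intro b _ hb
    have : (b : ℕ) ≠ 0 := fun h => hb (Fin.ext h)
    simp [this]
  · intro h; exact absurd (Finset.mem_univ _) h

/-- If `z` is the `2 n`-bit representation of `2 ^ (n - 1) * val y`, then its bit in
position `i` is the bit of `y` in position `i - 1`, for `1 ≤ i ≤ n`. -/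
theorem bit_of_shift {n : ℕ} (y : Fin n → Bool) (z : Fin (2 * n) → Bool)
    (hz : val z = 2 ^ (n - 1) * val y) (i : ℕ) (hi1 : 1 ≤ i) (hin : i ≤ n) :
    z ⟨i, by omega⟩ = y ⟨i - 1, by omega⟩ := by
  have h1 := testBit_val z (2 * n - 1 - i) (by omega)
  have h2 := testBit_val y (n - i) (by omega)
  have e1 : (⟨2 * n - 1 - (2 * n - 1 - i), by omega⟩ : Fin (2 * n)) = ⟨i, by omega⟩ := by
    ext; simp only; omega
  have e2 : (⟨n - 1 - (n - i), by omega⟩ : Fin n) = ⟨i - 1, by omega⟩ := by
    ext; simp only; omega
  rw [e1] at h1
  rw [e2] at h2
  rw [← h1, ← h2, hz, Nat.testBit_two_pow_mul]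
  have e3 : 2 * n - 1 - i - (n - 1) = n - i := by omega
  have e4 : 2 * n - 1 - i ≥ n - 1 := by omega
  simp [e3, e4]

end Vale.Agent.Lib.P338
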